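import Vale.Agent.Lib.P335.helper45.PairDefs

/-!
P335: Boolean 2 x 2 block facts for the square completion.
-/

namespace Vale.Agent.Lib.P335.H56

open Vale.Agent.Lib.P335.H45G

/-- Row and column sums and the total of a block of four Booleans `(xz, xw, yz, yw)`. -/
def rs1 (m : Bool × Bool × Bool × Bool) : ℕ := m.1.toNat + m.2.1.toNat
def rs2 (m : Bool × Bool × Bool × Bool) : ℕ := m.2.2.1.toNat + m.2.2.2.toNat
def cs1 (m : Bool × Bool × Bool × Bool) : ℕ := m.1.toNat + m.2.2.1.toNat
def cs2 (m : Bool × Bool × Bool × Bool) : ℕ := m.2.1.toNat + m.2.2.2.toNat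
def tot (m : Bool × Bool × Bool × Bool) : ℕ := m.1.toNat + m.2.1.toNat + m.2.2.1.toNat + m.2.2.2.toNat

/-- Entry of the block with row sum `r`, column sum `c` and total `t ≠ 2`. -/
def thr (t r c : ℕ) : Bool := decide (r = 2 ∨ c = 2 ∨ (r = 1 ∧ c = 1 ∧ t = 1))

/-- The block with the row sums of `g` and the column sums of `k`: it is `k` itself when `g`
has two ones, and the unique block with these margins otherwise. -/
def fill (g k : Bool × Bool × Bool × Bool) : Bool × Bool × Bool × Bool :=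
  if tot g = 2 then k
  else (thr (tot g) (rs1 g) (cs1 k), thr (tot g) (rs1 g) (cs2 k),
    thr (tot g) (rs2 g) (cs1 k), thr (tot g) (rs2 g) (cs2 k))

set_option maxRecDepth 100000 in
theorem fill_spec : ∀ g m k : Bool × Bool × Bool × Bool,
    cs1 g = cs1 m → cs2 g = cs2 m → rs1 m = rs1 k → rs2 m = rs2 k → mo4 g = mo4 m →
    (rs1 (fill g k) = rs1 g ∧ rs2 (fill g k) = rs2 g ∧ cs1 (fill g k) = cs1 k ∧
      cs2 (fill g k) = cs2 k ∧ mo4 (fill g k) = mo4 k) := by
  decide

end Vale.Agent.Lib.P335.H56
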