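import Vale.Agent.Lib.P335.helper56.Mix
import Vale.Agent.Lib.P335.helper56.SquareBool

/-!
P335, general degree vectors: the square completion for two disjoint pole pairs
`{x, y}` and `{z, w}` (block [C] of the pairwise inequality).

If `G`, `G₁` have the same `G - {x, y}` and the same two-edge cross block `Mo`, and
`G₁`, `G₂` have the same `G - {z, w}`, then some `G'` has `G' - {z, w} = G - {z, w}`,
`G' - {x, y} = G₂ - {x, y}` and `Mo G' = Mo G₂`.
-/

namespace Vale.Agent.Lib.P335.H56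

open Finset
open scoped Classical
open Vale.Agent.Lib.P335 Vale.Agent.Lib.P335.Bip Vale.Agent.Lib.P335.Gr
open Vale.Agent.Lib.P335.H45G

variable {n : ℕ}

/-- Neighbours of `a` inside a two-element set. -/
theorem cnt_pair (G : SimpleGraph (Fin n)) (a : Fin n) {z w : Fin n} (hzw : z ≠ w) :
    cnt G a {z, w} = (decide (G.Adj a z)).toNat + (decide (G.Adj a w)).toNat := by
  unfold cnt
  rw [Finset.filter_insert, Finset.filter_singleton]
  by_cases h1 : G.Adj a z <;> by_cases h2 : G.Adj a w <;> simp [h1, h2, hzw]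

/-- The number of neighbours inside `S` of a vertex outside `S` is a function of `G - S`
(for graphs with the same degrees). -/
theorem cnt_eq_of_gmask {S : Finset (Fin n)} {G G' : SimpleGraph (Fin n)}
    (h : gmask S G = gmask S G') {v : Fin n} (hdeg : G.degree v = G'.degree v) (hv : v ∉ S) :
    cnt G v S = cnt G' v S := by
  rw [gmask_eq_iff] at h
  have hu : (univ : Finset (Fin n)) = S ∪ (univ \ S) := by
    rw [Finset.union_sdiff_of_subset (Finset.subset_univ _)]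
  have hdj : Disjoint S (univ \ S) := Finset.disjoint_sdiff
  have e1 : cnt G v univ = cnt G v S + cnt G v (univ \ S) := by
    conv_lhs => rw [hu]
    exact cnt_union G v hdj
  have e2 : cnt G' v univ = cnt G' v S + cnt G' v (univ \ S) := by
    conv_lhs => rw [hu]
    exact cnt_union G' v hdj
  have e3 : cnt G v (univ \ S) = cnt G' v (univ \ S) := by
    refine cnt_congr (fun b hb => ?_)
    rw [Finset.mem_sdiff] at hb
    exact h v b hv hb.2
  rw [degree_eq_cnt, degree_eq_cnt] at hdeg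
  omega

/-- Neighbours inside a set `T` disjoint from `S` of a vertex outside `S` are read off
`G - S`. -/
theorem cnt_eq_of_gmask_disj {S T : Finset (Fin n)} {G G' : SimpleGraph (Fin n)}
    (h : gmask S G = gmask S G') {v : Fin n} (hv : v ∉ S) (hT : ∀ b ∈ T, b ∉ S) :
    cnt G v T = cnt G' v T := by
  rw [gmask_eq_iff] at h
  exact cnt_congr (fun b hb => h v b hv (hT b hb))

/-- The graph whose only edges are the cross pairs `xz, xw, yz, yw` selected by the block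
`c`. -/
def crossG (x y z w : Fin n) (c : Bool × Bool × Bool × Bool) : SimpleGraph (Fin n) where
  Adj a b := a ≠ b ∧
    ((((a = x ∧ b = z) ∨ (a = z ∧ b = x)) ∧ c.1 = true) ∨
     (((a = x ∧ b = w) ∨ (a = w ∧ b = x)) ∧ c.2.1 = true) ∨
     (((a = y ∧ b = z) ∨ (a = z ∧ b = y)) ∧ c.2.2.1 = true) ∨
     (((a = y ∧ b = w) ∨ (a = w ∧ b = y)) ∧ c.2.2.2 = true))
  symm := ⟨fun a b h => ⟨h.1.symm, by
    rcases h.2 with ⟨h, hc⟩ | ⟨h, hc⟩ | ⟨h, hc⟩ | ⟨h, hc⟩
    · exact Or.inl ⟨h.symm.imp And.symm And.symm, hc⟩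
    · exact Or.inr (Or.inl ⟨h.symm.imp And.symm And.symm, hc⟩)
    · exact Or.inr (Or.inr (Or.inl ⟨h.symm.imp And.symm And.symm, hc⟩))
    · exact Or.inr (Or.inr (Or.inr ⟨h.symm.imp And.symm And.symm, hc⟩))⟩⟩
  loopless := ⟨fun a h => h.1 rfl⟩

theorem crossG_adj (x y z w : Fin n) (c : Bool × Bool × Bool × Bool) (a b : Fin n) :
    (crossG x y z w c).Adj a b ↔ a ≠ b ∧
    ((((a = x ∧ b = z) ∨ (a = z ∧ b = x)) ∧ c.1 = true) ∨
     (((a = x ∧ b = w) ∨ (a = w ∧ b = x)) ∧ c.2.1 = true) ∨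
     (((a = y ∧ b = z) ∨ (a = z ∧ b = y)) ∧ c.2.2.1 = true) ∨
     (((a = y ∧ b = w) ∨ (a = w ∧ b = y)) ∧ c.2.2.2 = true)) := Iff.rfl

section four

variable {x y z w : Fin n}

theorem crossG_xz (hxy : x ≠ y) (hxz : x ≠ z) (hxw : x ≠ w) (hyz : y ≠ z) (hyw : y ≠ w)
    (hzw : z ≠ w) (c : Bool × Bool × Bool × Bool) :
    (crossG x y z w c).Adj x z ↔ c.1 = true := by
  rw [crossG_adj]
  constructor
  · rintro ⟨-, h⟩
    rcases h with ⟨-, h⟩ | ⟨h, -⟩ | ⟨h, -⟩ | ⟨h, -⟩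
    · exact h
    · rcases h with ⟨-, h⟩ | ⟨h, -⟩
      · exact absurd h hzw
      · exact absurd h hxw
    · rcases h with ⟨h, -⟩ | ⟨h, -⟩
      · exact absurd h hxy
      · exact absurd h hxz
    · rcases h with ⟨h, -⟩ | ⟨h, -⟩
      · exact absurd h hxy
      · exact absurd h hxw
  · intro h
    exact ⟨hxz, Or.inl ⟨Or.inl ⟨rfl, rfl⟩, h⟩⟩

theorem crossG_xw (hxy : x ≠ y) (hxz : x ≠ z) (hxw : x ≠ w) (hyz : y ≠ z) (hyw : y ≠ w)
    (hzw : z ≠ w) (c : Bool × Bool × Bool × Bool) :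
    (crossG x y z w c).Adj x w ↔ c.2.1 = true := by
  rw [crossG_adj]
  constructor
  · rintro ⟨-, h⟩
    rcases h with ⟨h, -⟩ | ⟨-, h⟩ | ⟨h, -⟩ | ⟨h, -⟩
    · rcases h with ⟨-, h⟩ | ⟨h, -⟩
      · exact absurd h.symm hzw
      · exact absurd h hxz
    · exact h
    · rcases h with ⟨h, -⟩ | ⟨h, -⟩
      · exact absurd h hxy
      · exact absurd h hxz
    · rcases h with ⟨h, -⟩ | ⟨h, -⟩
      · exact absurd h hxy
      · exact absurd h hxw
  · intro h
    exact ⟨hxw, Or.inr (Or.inl ⟨Or.inl ⟨rfl, rfl⟩, h⟩)⟩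

theorem crossG_yz (hxy : x ≠ y) (hxz : x ≠ z) (hxw : x ≠ w) (hyz : y ≠ z) (hyw : y ≠ w)
    (hzw : z ≠ w) (c : Bool × Bool × Bool × Bool) :
    (crossG x y z w c).Adj y z ↔ c.2.2.1 = true := by
  rw [crossG_adj]
  constructor
  · rintro ⟨-, h⟩
    rcases h with ⟨h, -⟩ | ⟨h, -⟩ | ⟨-, h⟩ | ⟨h, -⟩
    · rcases h with ⟨h, -⟩ | ⟨h, -⟩
      · exact absurd h.symm hxy
      · exact absurd h hyz
    · rcases h with ⟨h, -⟩ | ⟨h, -⟩
      · exact absurd h.symm hxy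
      · exact absurd h hyw
    · exact h
    · rcases h with ⟨-, h⟩ | ⟨h, -⟩
      · exact absurd h hzw
      · exact absurd h hyw
  · intro h
    exact ⟨hyz, Or.inr (Or.inr (Or.inl ⟨Or.inl ⟨rfl, rfl⟩, h⟩))⟩

theorem crossG_yw (hxy : x ≠ y) (hxz : x ≠ z) (hxw : x ≠ w) (hyz : y ≠ z) (hyw : y ≠ w)
    (hzw : z ≠ w) (c : Bool × Bool × Bool × Bool) :
    (crossG x y z w c).Adj y w ↔ c.2.2.2 = true := by
  rw [crossG_adj]
  constructor
  · rintro ⟨-, h⟩
    rcases h with ⟨h, -⟩ | ⟨h, -⟩ | ⟨h, -⟩ | ⟨-, h⟩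
    · rcases h with ⟨h, -⟩ | ⟨h, -⟩
      · exact absurd h.symm hxy
      · exact absurd h hyz
    · rcases h with ⟨h, -⟩ | ⟨h, -⟩
      · exact absurd h.symm hxy
      · exact absurd h hyw
    · rcases h with ⟨-, h⟩ | ⟨h, -⟩
      · exact absurd h.symm hzw
      · exact absurd h hyz
    · exact h
  · intro h
    exact ⟨hyw, Or.inr (Or.inr (Or.inr ⟨Or.inl ⟨rfl, rfl⟩, h⟩))⟩

/-- The cross block of `crossG x y z w c` is `c`. -/
theorem cb_crossG (hxy : x ≠ y) (hxz : x ≠ z) (hxw : x ≠ w) (hyz : y ≠ z) (hyw : y ≠ w)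
    (hzw : z ≠ w) (c : Bool × Bool × Bool × Bool) :
    cb x y z w (crossG x y z w c) = c := by
  have e1 : decide ((crossG x y z w c).Adj x z) = c.1 := by
    rw [Bool.eq_iff_iff, decide_eq_true_iff]
    exact crossG_xz hxy hxz hxw hyz hyw hzw c
  have e2 : decide ((crossG x y z w c).Adj x w) = c.2.1 := by
    rw [Bool.eq_iff_iff, decide_eq_true_iff]
    exact crossG_xw hxy hxz hxw hyz hyw hzw c
  have e3 : decide ((crossG x y z w c).Adj y z) = c.2.2.1 := by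
    rw [Bool.eq_iff_iff, decide_eq_true_iff]
    exact crossG_yz hxy hxz hxw hyz hyw hzw c
  have e4 : decide ((crossG x y z w c).Adj y w) = c.2.2.2 := by
    rw [Bool.eq_iff_iff, decide_eq_true_iff]
    exact crossG_yw hxy hxz hxw hyz hyw hzw c
  unfold cb
  rw [e1, e2, e3, e4]

/-- The cross block only depends on the four cross adjacencies. -/
theorem cb_congr {A B : SimpleGraph (Fin n)} (h1 : A.Adj x z ↔ B.Adj x z)
    (h2 : A.Adj x w ↔ B.Adj x w) (h3 : A.Adj y z ↔ B.Adj y z) (h4 : A.Adj y w ↔ B.Adj y w) :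
    cb x y z w A = cb x y z w B := by
  unfold cb
  rw [decide_eq_decide.mpr h1, decide_eq_decide.mpr h2, decide_eq_decide.mpr h3,
    decide_eq_decide.mpr h4]

theorem cnt_x_eq (A : SimpleGraph (Fin n)) (hzw : z ≠ w) :
    cnt A x {z, w} = rs1 (cb x y z w A) := by
  rw [cnt_pair A x hzw]
  rfl

theorem cnt_y_eq (A : SimpleGraph (Fin n)) (hzw : z ≠ w) :
    cnt A y {z, w} = rs2 (cb x y z w A) := by
  rw [cnt_pair A y hzw]
  rfl

theorem cnt_z_eq (A : SimpleGraph (Fin n)) (hxy : x ≠ y) :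
    cnt A z {x, y} = cs1 (cb x y z w A) := by
  rw [cnt_pair A z hxy, decide_eq_decide.mpr (A.adj_comm z x),
    decide_eq_decide.mpr (A.adj_comm z y)]
  rfl

theorem cnt_w_eq (A : SimpleGraph (Fin n)) (hxy : x ≠ y) :
    cnt A w {x, y} = cs2 (cb x y z w A) := by
  rw [cnt_pair A w hxy, decide_eq_decide.mpr (A.adj_comm w x),
    decide_eq_decide.mpr (A.adj_comm w y)]
  rfl

/-- **Square completion.** -/
theorem square_completion {d : Fin n → ℕ} (hxy : x ≠ y) (hxz : x ≠ z) (hxw : x ≠ w)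
    (hyz : y ≠ z) (hyw : y ≠ w) (hzw : z ≠ w) (G G₁ G₂ : Omega n d)
    (h1 : gmask {x, y} G.1 = gmask {x, y} G₁.1) (h2 : Mo x y z w G.1 = Mo x y z w G₁.1)
    (h3 : gmask {z, w} G₁.1 = gmask {z, w} G₂.1) :
    ∃ G' : Omega n d, gmask {z, w} G'.1 = gmask {z, w} G.1 ∧
      gmask {x, y} G'.1 = gmask {x, y} G₂.1 ∧ Mo x y z w G'.1 = Mo x y z w G₂.1 := by
  have hxp : x ∈ ({x, y} : Finset (Fin n)) := by simp
  have hyp : y ∈ ({x, y} : Finset (Fin n)) := by simp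
  have hzq : z ∈ ({z, w} : Finset (Fin n)) := by simp
  have hwq : w ∈ ({z, w} : Finset (Fin n)) := by simp
  have hxq : x ∉ ({z, w} : Finset (Fin n)) := by simp [hxz, hxw]
  have hyq : y ∉ ({z, w} : Finset (Fin n)) := by simp [hyz, hyw]
  have hzp : z ∉ ({x, y} : Finset (Fin n)) := by simp [hxz.symm, hyz.symm]
  have hwp : w ∉ ({x, y} : Finset (Fin n)) := by simp [hxw.symm, hyw.symm]
  have hd : Disjoint ({x, y} : Finset (Fin n)) {z, w} := by
    rw [Finset.disjoint_left]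
    intro a ha
    rw [Finset.mem_insert, Finset.mem_singleton] at ha
    rcases ha with rfl | rfl
    · exact hxq
    · exact hyq
  have hpq : ∀ b, b ∈ ({x, y} : Finset (Fin n)) → b ∉ ({z, w} : Finset (Fin n)) :=
    fun b hb hq => Finset.disjoint_left.mp hd hb hq
  have hdeg : ∀ (A B : Omega n d) (v : Fin n), A.1.degree v = B.1.degree v :=
    fun A B v => (A.2 v).trans (B.2 v).symm
  -- margins of the three cross blocks
  have e1 : cs1 (cb x y z w G.1) = cs1 (cb x y z w G₁.1) := by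
    rw [← cnt_z_eq G.1 hxy, ← cnt_z_eq G₁.1 hxy]
    exact cnt_eq_of_gmask h1 (hdeg G G₁ z) hzp
  have e2 : cs2 (cb x y z w G.1) = cs2 (cb x y z w G₁.1) := by
    rw [← cnt_w_eq G.1 hxy, ← cnt_w_eq G₁.1 hxy]
    exact cnt_eq_of_gmask h1 (hdeg G G₁ w) hwp
  have e3 : rs1 (cb x y z w G₁.1) = rs1 (cb x y z w G₂.1) := by
    rw [← cnt_x_eq G₁.1 hzw, ← cnt_x_eq G₂.1 hzw]
    exact cnt_eq_of_gmask h3 (hdeg G₁ G₂ x) hxq
  have e4 : rs2 (cb x y z w G₁.1) = rs2 (cb x y z w G₂.1) := by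
    rw [← cnt_y_eq G₁.1 hzw, ← cnt_y_eq G₂.1 hzw]
    exact cnt_eq_of_gmask h3 (hdeg G₁ G₂ y) hyq
  obtain ⟨r1, r2, c1, c2, hmo⟩ :=
    fill_spec (cb x y z w G.1) (cb x y z w G₁.1) (cb x y z w G₂.1) e1 e2 e3 e4 h2
  -- the completed graph
  have h12 : ∀ a b, a ∉ ({x, y} : Finset (Fin n)) → b ∉ ({x, y} : Finset (Fin n)) →
      a ∉ ({z, w} : Finset (Fin n)) → b ∉ ({z, w} : Finset (Fin n)) →
      (G₂.1.Adj a b ↔ G.1.Adj a b) := by
    intro a b ha hb ha' hb'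
    rw [gmask_eq_iff] at h1 h3
    rw [h1 a b ha hb, h3 a b ha' hb']
  have hc : ∀ v, v ∉ ({x, y} : Finset (Fin n)) → v ∉ ({z, w} : Finset (Fin n)) →
      cnt G₂.1 v {x, y} = cnt G.1 v {x, y} := by
    intro v hv hv'
    rw [cnt_eq_of_gmask h1 (hdeg G G₁ v) hv]
    exact (cnt_eq_of_gmask_disj h3 hv' hpq).symm
  have hrow : ∀ a ∈ ({x, y} : Finset (Fin n)),
      cnt (crossG x y z w (fill (cb x y z w G.1) (cb x y z w G₂.1))) a {z, w}
        = cnt G.1 a {z, w} := by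
    intro a ha
    rw [Finset.mem_insert, Finset.mem_singleton] at ha
    rcases ha with rfl | rfl
    · rw [cnt_x_eq _ hzw, cnt_x_eq _ hzw, cb_crossG hxy hxz hxw hyz hyw hzw, r1]
    · rw [cnt_y_eq _ hzw, cnt_y_eq _ hzw, cb_crossG hxy hxz hxw hyz hyw hzw, r2]
  have hcol : ∀ b ∈ ({z, w} : Finset (Fin n)),
      cnt (crossG x y z w (fill (cb x y z w G.1) (cb x y z w G₂.1))) b {x, y}
        = cnt G₂.1 b {x, y} := by
    intro b hb
    rw [Finset.mem_insert, Finset.mem_singleton] at hb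
    rcases hb with rfl | rfl
    · rw [cnt_z_eq _ hxy, cnt_z_eq _ hxy, cb_crossG hxy hxz hxw hyz hyw hzw, c1]
    · rw [cnt_w_eq _ hxy, cnt_w_eq _ hxy, cb_crossG hxy hxz hxw hyz hyw hzw, c2]
  refine ⟨⟨mixG {x, y} {z, w} G₂.1 G.1
    (crossG x y z w (fill (cb x y z w G.1) (cb x y z w G₂.1))), fun v => ?_⟩, ?_, ?_, ?_⟩
  · rw [mixG_degree hd (hdeg G₂ G) hc hrow hcol v]
    exact G₂.2 v
  · exact gmask_q_mixG _ h12
  · exact gmask_p_mixG _ _ _ _ _
  · show mo4 (cb x y z w (mixG {x, y} {z, w} G₂.1 G.1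
      (crossG x y z w (fill (cb x y z w G.1) (cb x y z w G₂.1))))) = mo4 (cb x y z w G₂.1)
    rw [cb_congr (mixG_adj_cross hxp hzq) (mixG_adj_cross hxp hwq) (mixG_adj_cross hyp hzq)
      (mixG_adj_cross hyp hwq), cb_crossG hxy hxz hxw hyz hyw hzw, hmo]

end four

end Vale.Agent.Lib.P335.H56
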