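import Vale.Agent.Lib.P335.helper72.GraphDefs

/-!
P335, general degree vectors: the mixing (rectangle) construction for two disjoint
vertex sets `p`, `q`.

* `cnt G v S` : number of neighbours of `v` inside `S`.
* `mixG p q G1 G2 G0` : the graph whose edges avoiding `p` are those of `G1`, whose edges
  meeting `p` and avoiding `q` are those of `G2`, and whose remaining edges (between `p`
  and `q`) are those of `G0`.
* `mixG_degree` : the degrees of the mixed graph, under the matching conditions on the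
  numbers of neighbours.
* `graph_ext_parts` : a graph is determined by `G - p`, `G - q` and its edges between
  `p` and `q`.
* `cexp_comm_of_mix` : abstract commutation criterion for two conditional expectations
  from a fibre-exchanging map.
-/

namespace Vale.Agent.Lib.P335.H56

open Finset
open scoped Classical
open Vale.Agent.Lib.P335 Vale.Agent.Lib.P335.Bip Vale.Agent.Lib.P335.Gr

variable {n : ℕ}

/-- Number of neighbours of `v` inside the vertex set `S`. -/
noncomputable def cnt (G : SimpleGraph (Fin n)) (v : Fin n) (S : Finset (Fin n)) : ℕ :=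
  (S.filter (fun b => G.Adj v b)).card

theorem degree_eq_cnt (G : SimpleGraph (Fin n)) (v : Fin n) : G.degree v = cnt G v univ := by
  unfold cnt
  rw [← SimpleGraph.card_neighborFinset_eq_degree]
  congr 1
  ext y
  simp [SimpleGraph.mem_neighborFinset]

theorem cnt_congr {G G' : SimpleGraph (Fin n)} {v : Fin n} {S : Finset (Fin n)}
    (h : ∀ b ∈ S, (G.Adj v b ↔ G'.Adj v b)) : cnt G v S = cnt G' v S := by
  unfold cnt
  congr 1
  exact Finset.filter_congr h

theorem cnt_union (G : SimpleGraph (Fin n)) (v : Fin n) {S T : Finset (Fin n)}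
    (h : Disjoint S T) : cnt G v (S ∪ T) = cnt G v S + cnt G v T := by
  unfold cnt
  rw [Finset.filter_union, Finset.card_union_of_disjoint]
  exact Finset.disjoint_filter_filter h

/-- Splitting the neighbours of `v` into those in `p`, those in `q` and the others. -/
theorem cnt_split (G : SimpleGraph (Fin n)) (v : Fin n) {p q : Finset (Fin n)}
    (h : Disjoint p q) :
    cnt G v univ = cnt G v p + cnt G v q + cnt G v (univ \ (p ∪ q)) := by
  have h1 : (univ : Finset (Fin n)) = (p ∪ q) ∪ (univ \ (p ∪ q)) := by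
    rw [Finset.union_sdiff_of_subset (Finset.subset_univ _)]
  have h2 : Disjoint (p ∪ q) (univ \ (p ∪ q)) := Finset.disjoint_sdiff
  calc cnt G v univ = cnt G v ((p ∪ q) ∪ (univ \ (p ∪ q))) := by rw [← h1]
    _ = cnt G v (p ∪ q) + cnt G v (univ \ (p ∪ q)) := cnt_union G v h2
    _ = cnt G v p + cnt G v q + cnt G v (univ \ (p ∪ q)) := by rw [cnt_union G v h]

/-- Adjacency of the mixed graph. -/
def mixAdj (p q : Finset (Fin n)) (G1 G2 G0 : SimpleGraph (Fin n)) (a b : Fin n) : Prop :=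
  if a ∉ p ∧ b ∉ p then G1.Adj a b else if a ∉ q ∧ b ∉ q then G2.Adj a b else G0.Adj a b

theorem mixAdj_symm {p q : Finset (Fin n)} {G1 G2 G0 : SimpleGraph (Fin n)} {a b : Fin n}
    (h : mixAdj p q G1 G2 G0 a b) : mixAdj p q G1 G2 G0 b a := by
  unfold mixAdj at h ⊢
  by_cases h1 : a ∉ p ∧ b ∉ p
  · rw [if_pos h1] at h
    rw [if_pos ⟨h1.2, h1.1⟩]
    exact h.symm
  · rw [if_neg h1] at h
    rw [if_neg (fun hh => h1 ⟨hh.2, hh.1⟩)]
    by_cases h2 : a ∉ q ∧ b ∉ q
    · rw [if_pos h2] at h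
      rw [if_pos ⟨h2.2, h2.1⟩]
      exact h.symm
    · rw [if_neg h2] at h
      rw [if_neg (fun hh => h2 ⟨hh.2, hh.1⟩)]
      exact h.symm

theorem mixAdj_irrefl {p q : Finset (Fin n)} {G1 G2 G0 : SimpleGraph (Fin n)} {a : Fin n} :
    ¬ mixAdj p q G1 G2 G0 a a := by
  unfold mixAdj
  intro h
  by_cases h1 : a ∉ p ∧ a ∉ p
  · rw [if_pos h1] at h
    exact G1.loopless.irrefl a h
  · rw [if_neg h1] at h
    by_cases h2 : a ∉ q ∧ a ∉ q
    · rw [if_pos h2] at h
      exact G2.loopless.irrefl a h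
    · rw [if_neg h2] at h
      exact G0.loopless.irrefl a h

/-- The mixed graph: edges avoiding `p` from `G1`, edges meeting `p` and avoiding `q` from
`G2`, all other edges (those between `p` and `q` when `p`, `q` are disjoint) from `G0`. -/
def mixG (p q : Finset (Fin n)) (G1 G2 G0 : SimpleGraph (Fin n)) : SimpleGraph (Fin n) where
  Adj := mixAdj p q G1 G2 G0
  symm := ⟨fun _ _ h => mixAdj_symm h⟩
  loopless := ⟨fun _ h => mixAdj_irrefl h⟩

theorem mixG_adj_off_p {p q : Finset (Fin n)} {G1 G2 G0 : SimpleGraph (Fin n)} {a b : Fin n}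
    (ha : a ∉ p) (hb : b ∉ p) : (mixG p q G1 G2 G0).Adj a b ↔ G1.Adj a b := by
  show mixAdj p q G1 G2 G0 a b ↔ _
  unfold mixAdj
  rw [if_pos ⟨ha, hb⟩]

theorem mixG_adj_off_q {p q : Finset (Fin n)} {G1 G2 G0 : SimpleGraph (Fin n)} {a b : Fin n}
    (hp : ¬ (a ∉ p ∧ b ∉ p)) (ha : a ∉ q) (hb : b ∉ q) :
    (mixG p q G1 G2 G0).Adj a b ↔ G2.Adj a b := by
  show mixAdj p q G1 G2 G0 a b ↔ _
  unfold mixAdj
  rw [if_neg hp, if_pos ⟨ha, hb⟩]

theorem mixG_adj_cross {p q : Finset (Fin n)} {G1 G2 G0 : SimpleGraph (Fin n)} {a b : Fin n}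
    (ha : a ∈ p) (hb : b ∈ q) : (mixG p q G1 G2 G0).Adj a b ↔ G0.Adj a b := by
  show mixAdj p q G1 G2 G0 a b ↔ _
  unfold mixAdj
  rw [if_neg (fun hh => hh.1 ha), if_neg (fun hh => hh.2 hb)]

/-- The degrees of the mixed graph. -/
theorem mixG_degree {p q : Finset (Fin n)} (hd : Disjoint p q)
    {G1 G2 G0 : SimpleGraph (Fin n)}
    (hdeg : ∀ v, G1.degree v = G2.degree v)
    (hc : ∀ v, v ∉ p → v ∉ q → cnt G1 v p = cnt G2 v p)
    (hrow : ∀ a ∈ p, cnt G0 a q = cnt G2 a q)
    (hcol : ∀ b ∈ q, cnt G0 b p = cnt G1 b p) (v : Fin n) :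
    (mixG p q G1 G2 G0).degree v = G1.degree v := by
  have hpq : ∀ b, b ∈ p → b ∉ q := fun b hb hq => Finset.disjoint_left.mp hd hb hq
  have hrest : ∀ b ∈ univ \ (p ∪ q), b ∉ p ∧ b ∉ q := by
    intro b hb
    rw [Finset.mem_sdiff, Finset.mem_union] at hb
    exact ⟨fun h => hb.2 (Or.inl h), fun h => hb.2 (Or.inr h)⟩
  rw [degree_eq_cnt, cnt_split _ v hd]
  by_cases hvp : v ∈ p
  · -- all edges at `v` come from `G2`, except the cross ones (from `G0`)
    have hvq : v ∉ q := hpq v hvp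
    have e1 : cnt (mixG p q G1 G2 G0) v p = cnt G2 v p :=
      cnt_congr (fun b hb => mixG_adj_off_q (fun hh => hh.1 hvp) hvq (hpq b hb))
    have e2 : cnt (mixG p q G1 G2 G0) v q = cnt G0 v q :=
      cnt_congr (fun b hb => mixG_adj_cross hvp hb)
    have e3 : cnt (mixG p q G1 G2 G0) v (univ \ (p ∪ q)) = cnt G2 v (univ \ (p ∪ q)) :=
      cnt_congr (fun b hb => mixG_adj_off_q (fun hh => hh.1 hvp) hvq (hrest b hb).2)
    rw [e1, e2, e3, hrow v hvp, hdeg v, degree_eq_cnt G2, cnt_split G2 v hd]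
  · by_cases hvq : v ∈ q
    · have e1 : cnt (mixG p q G1 G2 G0) v p = cnt G0 v p := by
        refine cnt_congr (fun b hb => ?_)
        have h1 : (mixG p q G1 G2 G0).Adj b v ↔ G0.Adj b v := mixG_adj_cross hb hvq
        rw [SimpleGraph.adj_comm, h1, SimpleGraph.adj_comm]
      have e2 : cnt (mixG p q G1 G2 G0) v q = cnt G1 v q :=
        cnt_congr (fun b hb => mixG_adj_off_p hvp (fun h => hpq b h hb))
      have e3 : cnt (mixG p q G1 G2 G0) v (univ \ (p ∪ q)) = cnt G1 v (univ \ (p ∪ q)) :=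
        cnt_congr (fun b hb => mixG_adj_off_p hvp (hrest b hb).1)
      rw [e1, e2, e3, hcol v hvq, degree_eq_cnt G1, cnt_split G1 v hd]
    · have e1 : cnt (mixG p q G1 G2 G0) v p = cnt G2 v p :=
        cnt_congr (fun b hb => mixG_adj_off_q (fun hh => hh.2 hb) hvq (hpq b hb))
      have e2 : cnt (mixG p q G1 G2 G0) v q = cnt G1 v q :=
        cnt_congr (fun b hb => mixG_adj_off_p hvp (fun h => hpq b h hb))
      have e3 : cnt (mixG p q G1 G2 G0) v (univ \ (p ∪ q)) = cnt G1 v (univ \ (p ∪ q)) :=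
        cnt_congr (fun b hb => mixG_adj_off_p hvp (hrest b hb).1)
      rw [e1, e2, e3, ← hc v hvp hvq, degree_eq_cnt G1, cnt_split G1 v hd]

/-- `mix - p = G1 - p`. -/
theorem gmask_p_mixG (p q : Finset (Fin n)) (G1 G2 G0 : SimpleGraph (Fin n)) :
    gmask p (mixG p q G1 G2 G0) = gmask p G1 := by
  rw [gmask_eq_iff]
  intro a b ha hb
  exact mixG_adj_off_p ha hb

/-- `mix - q = G2 - q`, when `G1` and `G2` agree outside `p ∪ q`. -/
theorem gmask_q_mixG {p q : Finset (Fin n)} {G1 G2 : SimpleGraph (Fin n)}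
    (G0 : SimpleGraph (Fin n))
    (h12 : ∀ a b, a ∉ p → b ∉ p → a ∉ q → b ∉ q → (G1.Adj a b ↔ G2.Adj a b)) :
    gmask q (mixG p q G1 G2 G0) = gmask q G2 := by
  rw [gmask_eq_iff]
  intro a b ha hb
  by_cases h1 : a ∉ p ∧ b ∉ p
  · rw [mixG_adj_off_p h1.1 h1.2]
    exact h12 a b h1.1 h1.2 ha hb
  · exact mixG_adj_off_q h1 ha hb

/-- A graph is determined by `G - p`, `G - q` and its edges between `p` and `q`. -/
theorem graph_ext_parts {p q : Finset (Fin n)} (hd : Disjoint p q) {G G' : SimpleGraph (Fin n)}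
    (hp : gmask p G = gmask p G') (hq : gmask q G = gmask q G')
    (hx : ∀ a ∈ p, ∀ b ∈ q, (G.Adj a b ↔ G'.Adj a b)) : G = G' := by
  have hpq : ∀ b, b ∈ p → b ∉ q := fun b hb hq => Finset.disjoint_left.mp hd hb hq
  rw [gmask_eq_iff] at hp hq
  ext a b
  by_cases h1 : a ∉ p ∧ b ∉ p
  · exact hp a b h1.1 h1.2
  · by_cases h2 : a ∉ q ∧ b ∉ q
    · exact hq a b h2.1 h2.2
    · -- one end in `p`, one end in `q`
      by_cases ha : a ∈ p
      · have hb : b ∈ q := by
          by_contra hb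
          exact h2 ⟨hpq a ha, hb⟩
        exact hx a ha b hb
      · have hb : b ∈ p := by
          by_contra hb
          exact h1 ⟨ha, hb⟩
        have haq : a ∈ q := by
          by_contra haq
          exact h2 ⟨haq, hpq b hb⟩
        rw [SimpleGraph.adj_comm, hx b hb a haq, SimpleGraph.adj_comm]

/-- Abstract commutation criterion: if for `κ₂ x = κ₂ y` the map `mix y` sends the
`κ₁`-fibre of `x` into the `κ₁`-fibre of `y` without changing `κ₂`, and `mix x` undoes it,
then the two conditional expectations commute. -/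
theorem cexp_comm_of_mix {Ω K₁ K₂ : Type*} [Fintype Ω] [DecidableEq K₁] [DecidableEq K₂]
    (κ₁ : Ω → K₁) (κ₂ : Ω → K₂) (mix : Ω → Ω → Ω)
    (m1 : ∀ x y H, κ₂ x = κ₂ y → κ₁ H = κ₁ x → κ₁ (mix y H) = κ₁ y)
    (m2 : ∀ x y H, κ₂ x = κ₂ y → κ₁ H = κ₁ x → κ₂ (mix y H) = κ₂ H)
    (m3 : ∀ x y H, κ₂ x = κ₂ y → κ₁ H = κ₁ x → mix x (mix y H) = H)
    (f : Ω → ℝ) : cexp κ₁ (cexp κ₂ f) = cexp κ₂ (cexp κ₁ f) := by
  refine cexp_comm_of_preserves κ₁ κ₂ ?_ f
  intro g hg x y hxy
  have hbij : ∀ s : Ω → ℝ, (∀ a b, κ₂ a = κ₂ b → s a = s b) →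
      ∑ H ∈ univ.filter (fun H => κ₁ H = κ₁ x), s H
        = ∑ H ∈ univ.filter (fun H => κ₁ H = κ₁ y), s H := by
    intro s hs
    refine Finset.sum_nbij' (fun H => mix y H) (fun H => mix x H) ?_ ?_ ?_ ?_ ?_
    · intro H hH
      simp only [Finset.mem_filter, Finset.mem_univ, true_and] at hH ⊢
      exact m1 x y H hxy hH
    · intro H hH
      simp only [Finset.mem_filter, Finset.mem_univ, true_and] at hH ⊢
      exact m1 y x H hxy.symm hH
    · intro H hH
      simp only [Finset.mem_filter, Finset.mem_univ, true_and] at hH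
      exact m3 x y H hxy hH
    · intro H hH
      simp only [Finset.mem_filter, Finset.mem_univ, true_and] at hH
      exact m3 y x H hxy.symm hH
    · intro H hH
      simp only [Finset.mem_filter, Finset.mem_univ, true_and] at hH
      exact (hs _ _ (m2 x y H hxy hH)).symm
  have hcard := hbij (fun _ => (1 : ℝ)) (fun _ _ _ => rfl)
  simp only [Finset.sum_const, nsmul_eq_mul, mul_one] at hcard
  rw [cexp_apply, cexp_apply, hbij g hg, hcard]

end Vale.Agent.Lib.P335.H56
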