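import Vale.Agent.Lib.P335.helper56.SquareBool

/-!
P335: more Boolean 2 x 2 block facts (no classical instances, so that `decide` evaluates).
-/

namespace Vale.Agent.Lib.P335.H56

open Vale.Agent.Lib.P335.H45G

/-- A block is determined by its margins and its two-edge part. -/
theorem block_inj : ∀ g k : Bool × Bool × Bool × Bool,
    cs1 g = cs1 k → cs2 g = cs2 k → rs1 g = rs1 k → rs2 g = rs2 k → mo4 g = mo4 k → g = k := by
  decide

/-- The block is one of the two perfect matchings. -/
def sepb (g : Bool × Bool × Bool × Bool) : Bool :=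
  (g.1 && g.2.2.2 && !g.2.1 && !g.2.2.1) || (g.2.1 && g.2.2.1 && !g.1 && !g.2.2.2)

theorem block_const_a : ∀ g k : Bool × Bool × Bool × Bool, sepb g = false → tot g ≠ 2 →
    cs1 k = cs1 g → cs2 k = cs2 g → mo4 k = mo4 g := by
  decide

theorem block_const_b : ∀ g k : Bool × Bool × Bool × Bool, sepb g = false → tot g = 2 →
    (rs1 g = 2 ∨ rs2 g = 2) → rs1 k = rs1 g → rs2 k = rs2 g → mo4 k = mo4 g := by
  decide

theorem block_const_c : ∀ g k : Bool × Bool × Bool × Bool, sepb g = false → tot g = 2 →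
    ¬ (rs1 g = 2 ∨ rs2 g = 2) → cs1 k = cs1 g → cs2 k = cs2 g → mo4 k = mo4 g := by
  decide

/-- Off the perfect matchings, the two-edge part of a block is determined by its column sums
or by its row sums. -/
theorem block_const (g : Bool × Bool × Bool × Bool) (hg : sepb g = false) :
    (∀ k : Bool × Bool × Bool × Bool, cs1 k = cs1 g → cs2 k = cs2 g → mo4 k = mo4 g) ∨
    (∀ k : Bool × Bool × Bool × Bool, rs1 k = rs1 g → rs2 k = rs2 g → mo4 k = mo4 g) := by
  by_cases ht : tot g = 2
  · by_cases hr : rs1 g = 2 ∨ rs2 g = 2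
    · exact Or.inr (fun k h1 h2 => block_const_b g k hg ht hr h1 h2)
    · exact Or.inl (fun k h1 h2 => block_const_c g k hg ht hr h1 h2)
  · exact Or.inl (fun k h1 h2 => block_const_a g k hg ht h1 h2)

end Vale.Agent.Lib.P335.H56

namespace Vale.Agent.Lib.P335.H56

open Vale.Agent.Lib.P335.H45G

/-- Transposition of a block `(xz, xw, yz, yw) ↦ (xz, yz, xw, yw)`. -/
def tr4 (m : Bool × Bool × Bool × Bool) : Bool × Bool × Bool × Bool :=
  (m.1, m.2.2.1, m.2.1, m.2.2.2)

theorem tr4_tr4 : ∀ m : Bool × Bool × Bool × Bool, tr4 (tr4 m) = m := by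
  decide

theorem mo4_tr4 : ∀ m : Bool × Bool × Bool × Bool, mo4 (tr4 m) = tr4 (mo4 m) := by
  decide

theorem tr4_inj {a b : Bool × Bool × Bool × Bool} (h : tr4 a = tr4 b) : a = b := by
  have := congrArg tr4 h
  rwa [tr4_tr4, tr4_tr4] at this

end Vale.Agent.Lib.P335.H56
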