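import Vale.Agent.Lib.P335.helper56.Square
import Vale.Agent.Lib.P335.helper56.PairBool

/-!
P335, general degree vectors: two structural facts for the pairwise inequality.

* `pair_inj` : a graph of `Omega n d` is determined by `G - {x, y}`, `G - {z, w}` and the
  two-edge cross block `Mo`.
* `mo_const_off_sep` : if the cross block of `G` is not one of the two perfect matchings, then
  `Mo` is constant on the `G - {x, y}` class of `G` or on the `G - {z, w}` class of `G`.
-/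

namespace Vale.Agent.Lib.P335.H56

open Finset
open scoped Classical
open Vale.Agent.Lib.P335 Vale.Agent.Lib.P335.Bip Vale.Agent.Lib.P335.Gr
open Vale.Agent.Lib.P335.H45G

variable {n : ℕ} {x y z w : Fin n}

theorem sep_iff_sepb (A : SimpleGraph (Fin n)) :
    H45G.Sep x y z w A ↔ sepb (cb x y z w A) = true := by
  unfold H45G.Sep sepb cb
  by_cases h1 : A.Adj x z <;> by_cases h2 : A.Adj x w <;> by_cases h3 : A.Adj y z <;>
    by_cases h4 : A.Adj y w <;> simp [h1, h2, h3, h4]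

/-- Column sums of the cross block are a function of `G - {x, y}`. -/
theorem cs_eq_of_gmask {d : Fin n → ℕ} (hxy : x ≠ y) (hxz : x ≠ z) (hxw : x ≠ w)
    (hyz : y ≠ z) (hyw : y ≠ w) (G G' : Omega n d)
    (h : gmask {x, y} G.1 = gmask {x, y} G'.1) :
    cs1 (cb x y z w G.1) = cs1 (cb x y z w G'.1) ∧ cs2 (cb x y z w G.1) = cs2 (cb x y z w G'.1) := by
  have hzp : z ∉ ({x, y} : Finset (Fin n)) := by simp [hxz.symm, hyz.symm]
  have hwp : w ∉ ({x, y} : Finset (Fin n)) := by simp [hxw.symm, hyw.symm]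
  constructor
  · rw [← cnt_z_eq G.1 hxy, ← cnt_z_eq G'.1 hxy]
    exact cnt_eq_of_gmask h ((G.2 z).trans (G'.2 z).symm) hzp
  · rw [← cnt_w_eq G.1 hxy, ← cnt_w_eq G'.1 hxy]
    exact cnt_eq_of_gmask h ((G.2 w).trans (G'.2 w).symm) hwp

/-- Row sums of the cross block are a function of `G - {z, w}`. -/
theorem rs_eq_of_gmask {d : Fin n → ℕ} (hxz : x ≠ z) (hxw : x ≠ w)
    (hyz : y ≠ z) (hyw : y ≠ w) (hzw : z ≠ w) (G G' : Omega n d)
    (h : gmask {z, w} G.1 = gmask {z, w} G'.1) :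
    rs1 (cb x y z w G.1) = rs1 (cb x y z w G'.1) ∧ rs2 (cb x y z w G.1) = rs2 (cb x y z w G'.1) := by
  have hxq : x ∉ ({z, w} : Finset (Fin n)) := by simp [hxz, hxw]
  have hyq : y ∉ ({z, w} : Finset (Fin n)) := by simp [hyz, hyw]
  constructor
  · rw [← cnt_x_eq G.1 hzw, ← cnt_x_eq G'.1 hzw]
    exact cnt_eq_of_gmask h ((G.2 x).trans (G'.2 x).symm) hxq
  · rw [← cnt_y_eq G.1 hzw, ← cnt_y_eq G'.1 hzw]
    exact cnt_eq_of_gmask h ((G.2 y).trans (G'.2 y).symm) hyq

/-- A graph of `Omega n d` is determined by `G - {x, y}`, `G - {z, w}` and `Mo`. -/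
theorem pair_inj {d : Fin n → ℕ} (hxy : x ≠ y) (hxz : x ≠ z) (hxw : x ≠ w)
    (hyz : y ≠ z) (hyw : y ≠ w) (hzw : z ≠ w) (G G' : Omega n d)
    (h1 : gmask {x, y} G.1 = gmask {x, y} G'.1) (h2 : gmask {z, w} G.1 = gmask {z, w} G'.1)
    (h3 : Mo x y z w G.1 = Mo x y z w G'.1) : G = G' := by
  have hc := cs_eq_of_gmask hxy hxz hxw hyz hyw G G' h1
  have hr := rs_eq_of_gmask hxz hxw hyz hyw hzw G G' h2
  have hcb : cb x y z w G.1 = cb x y z w G'.1 :=
    block_inj _ _ hc.1 hc.2 hr.1 hr.2 h3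
  have hxq : x ∉ ({z, w} : Finset (Fin n)) := by simp [hxz, hxw]
  have hyq : y ∉ ({z, w} : Finset (Fin n)) := by simp [hyz, hyw]
  have hd : Disjoint ({x, y} : Finset (Fin n)) {z, w} := by
    rw [Finset.disjoint_left]
    intro a ha
    rw [Finset.mem_insert, Finset.mem_singleton] at ha
    rcases ha with rfl | rfl
    · exact hxq
    · exact hyq
  unfold cb at hcb
  simp only [Prod.mk.injEq, decide_eq_decide] at hcb
  apply Subtype.ext
  refine graph_ext_parts hd h1 h2 ?_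
  intro a ha b hb
  rw [Finset.mem_insert, Finset.mem_singleton] at ha hb
  rcases ha with rfl | rfl <;> rcases hb with rfl | rfl
  · exact hcb.1
  · exact hcb.2.1
  · exact hcb.2.2.1
  · exact hcb.2.2.2

/-- Off `Sep`, the key `Mo` is constant on the `G - {x, y}` class or on the `G - {z, w}`
class. -/
theorem mo_const_off_sep {d : Fin n → ℕ} (hxy : x ≠ y) (hxz : x ≠ z) (hxw : x ≠ w)
    (hyz : y ≠ z) (hyw : y ≠ w) (hzw : z ≠ w) (G : Omega n d) (hS : ¬ H45G.Sep x y z w G.1) :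
    (∀ G' : Omega n d, gmask {x, y} G'.1 = gmask {x, y} G.1 →
        Mo x y z w G'.1 = Mo x y z w G.1) ∨
    (∀ G' : Omega n d, gmask {z, w} G'.1 = gmask {z, w} G.1 →
        Mo x y z w G'.1 = Mo x y z w G.1) := by
  rw [sep_iff_sepb, Bool.not_eq_true] at hS
  rcases block_const _ hS with h | h
  · left
    intro G' hG'
    have hc := cs_eq_of_gmask hxy hxz hxw hyz hyw G' G hG'
    exact h _ hc.1 hc.2
  · right
    intro G' hG'
    have hr := rs_eq_of_gmask hxz hxw hyz hyw hzw G' G hG'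
    exact h _ hr.1 hr.2

end Vale.Agent.Lib.P335.H56
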