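import Vale.Agent.Lib.P335.helper56.Square
import Vale.Agent.Lib.P335.helper56.PairBool

/-!
P335, general degree vectors: the mirrored square completion (roles of the two pole pairs
exchanged, same key `Mo x y z w`).
-/

namespace Vale.Agent.Lib.P335.H56

open Finset
open scoped Classical
open Vale.Agent.Lib.P335 Vale.Agent.Lib.P335.Bip Vale.Agent.Lib.P335.Gr
open Vale.Agent.Lib.P335.H45G

variable {n : ℕ} {x y z w : Fin n}

/-- Exchanging the two pole pairs transposes the cross block. -/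
theorem cb_swap (A : SimpleGraph (Fin n)) : cb z w x y A = tr4 (cb x y z w A) := by
  unfold cb tr4
  rw [decide_eq_decide.mpr (A.adj_comm z x), decide_eq_decide.mpr (A.adj_comm z y),
    decide_eq_decide.mpr (A.adj_comm w x), decide_eq_decide.mpr (A.adj_comm w y)]

/-- Exchanging the two pole pairs transposes the key `Mo`. -/
theorem Mo_swap (A : SimpleGraph (Fin n)) : Mo z w x y A = tr4 (Mo x y z w A) := by
  unfold Mo
  rw [cb_swap, mo4_tr4]

/-- **Mirrored square completion.** -/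
theorem square_completion_mirror {d : Fin n → ℕ} (hxy : x ≠ y) (hxz : x ≠ z) (hxw : x ≠ w)
    (hyz : y ≠ z) (hyw : y ≠ w) (hzw : z ≠ w) (G G₁ G₂ : Omega n d)
    (h1 : gmask {z, w} G.1 = gmask {z, w} G₁.1) (h2 : Mo x y z w G.1 = Mo x y z w G₁.1)
    (h3 : gmask {x, y} G₁.1 = gmask {x, y} G₂.1) :
    ∃ G' : Omega n d, gmask {x, y} G'.1 = gmask {x, y} G.1 ∧
      gmask {z, w} G'.1 = gmask {z, w} G₂.1 ∧ Mo x y z w G'.1 = Mo x y z w G₂.1 := by
  have h2' : Mo z w x y G.1 = Mo z w x y G₁.1 := by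
    rw [Mo_swap (x := x) (y := y) (z := z) (w := w) G.1,
      Mo_swap (x := x) (y := y) (z := z) (w := w) G₁.1, h2]
  obtain ⟨G', e1, e2, e3⟩ :=
    square_completion hzw hxz.symm hyz.symm hxw.symm hyw.symm hxy G G₁ G₂ h1 h2' h3
  refine ⟨G', e1, e2, ?_⟩
  rw [Mo_swap (x := x) (y := y) (z := z) (w := w) G'.1,
    Mo_swap (x := x) (y := y) (z := z) (w := w) G₂.1] at e3
  exact tr4_inj e3

end Vale.Agent.Lib.P335.H56
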